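import Vale.Agent.P260Z.Ob.Top.Defs
import Vale.Agent.P260Z.LayF

/-!
# P260, obstruction: the periodic layout is a chart
-/

noncomputable section

namespace Vale.Agent.P260Z.Lay

open P215Z

variable {k : ℕ}

/-- the caves, with a longer copy of the channel which overlaps the lower beam -/
def cv (k : ℕ) : List (Pt × Pt) := caves k ++ (List.range k).map fun i : ℕ => bx i 8 9 3 4 1 6

theorem mem_cv {c : Pt × Pt} :
    c ∈ cv k ↔ c ∈ caves k ∨ ∃ i : ℕ, i < k ∧ c = bx i 8 9 3 4 1 6 := by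
  simp only [cv, List.mem_append, List.mem_map, List.mem_range, eq_comm]

theorem cv_cases {c : Pt × Pt} (h : c ∈ cv k) : ∃ i : ℕ, i < k ∧
    ((i + 1 < k ∧ c = bx i 11 16 1 16 5 14) ∨ (i + 1 = k ∧ c = bx i 1 16 10 17 5 14) ∨
      c = bx i 1 16 1 7 5 14 ∨ c = bx i 1 16 10 16 5 14 ∨ c = bx i 8 9 3 4 1 5 ∨
      c = bx i 8 9 3 9 1 2 ∨ c = bx i 8 9 8 9 (-15) 2 ∨ c = bx i 8 9 8 17 (-15) (-14) ∨
      c = bx i 8 9 3 4 1 6) := by
  rcases mem_cv.1 h with h | ⟨i, hi, h⟩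
  · obtain ⟨i, hi, h⟩ := cave_cases h
    exact ⟨i, hi, by tauto⟩
  · exact ⟨i, hi, by tauto⟩

/-- the distance from the exit -/
def rk (c : Pt × Pt) : ℕ :=
  if c.1 0 = 8 then (if c.2 1 = 17 then 0 else if c.1 1 = 8 then 1 else if c.2 1 = 9 then 2 else 3)
  else if c.1 0 = 11 then 5 else if c.2 1 = 7 then 4 else if c.2 1 = 17 then 0 else 6

theorem ovl (i x x' y y' z z' u u' v v' w w' : ℤ)
    (h : (x < u' ∧ u < x') ∧ (y < v' ∧ v < y') ∧ z < w' ∧ w < z') (j : Fin 4) :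
    (bx i x x' y y' z z').1 j < (bx i u u' v v' w w').2 j ∧
      (bx i u u' v v' w w').1 j < (bx i x x' y y' z z').2 j := by
  fin_cases j
  · exact h.1
  · exact h.2.1
  · exact ⟨show 18 * i + z < 18 * i + w' by omega, show 18 * i + w < 18 * i + z' by omega⟩
  · exact ⟨show (0 : ℤ) < 3 by decide, show (0 : ℤ) < 3 by decide⟩

theorem cv_out {c : Pt × Pt} (h : c ∈ cv k) : (∃ j, j ≠ 3 ∧ (c.1 j ≤ 0 ∨ boxHi k j ≤ c.2 j)) ∨
    ∃ c' ∈ cv k, rk c' < rk c ∧ ∀ j, c.1 j < c'.2 j ∧ c'.1 j < c.2 j := by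
  obtain ⟨i, hi, h⟩ := cv_cases h
  have hT : ∀ c ∈ tree i, c ∈ cv k := fun c hc => mem_cv.2 (Or.inl (tree_mem hi hc))
  rcases h with ⟨-, rfl⟩ | ⟨-, rfl⟩ | rfl | rfl | rfl | rfl | rfl | rfl | rfl
  · exact Or.inr ⟨bx i 1 16 1 7 5 14, hT _ (by simp [tree]), show 4 < 5 by decide,
      ovl _ _ _ _ _ _ _ _ _ _ _ _ _ (by decide)⟩
  · exact Or.inl ⟨1, by decide, Or.inr le_rfl⟩
  · exact Or.inr ⟨bx i 8 9 3 4 1 6, mem_cv.2 (Or.inr ⟨i, hi, rfl⟩), show 3 < 4 by decide,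
      ovl _ _ _ _ _ _ _ _ _ _ _ _ _ (by decide)⟩
  · rcases (show i + 1 < k ∨ i + 1 = k by omega) with h | h
    · exact Or.inr ⟨clo i, mem_cv.2 (Or.inl (clo_mem h)), show 5 < 6 by decide,
        ovl _ _ _ _ _ _ _ _ _ _ _ _ _ (by decide)⟩
    · exact Or.inr ⟨top i, mem_cv.2 (Or.inl (top_mem h)), show 0 < 6 by decide,
        ovl _ _ _ _ _ _ _ _ _ _ _ _ _ (by decide)⟩
  · exact Or.inr ⟨bx i 8 9 3 9 1 2, hT _ (by simp [tree]), show 2 < 3 by decide,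
      ovl _ _ _ _ _ _ _ _ _ _ _ _ _ (by decide)⟩
  · exact Or.inr ⟨bx i 8 9 8 9 (-15) 2, hT _ (by simp [tree]), show 1 < 2 by decide,
      ovl _ _ _ _ _ _ _ _ _ _ _ _ _ (by decide)⟩
  · exact Or.inr ⟨bx i 8 9 8 17 (-15) (-14), hT _ (by simp [tree]), show 0 < 1 by decide,
      ovl _ _ _ _ _ _ _ _ _ _ _ _ _ (by decide)⟩
  · exact Or.inl ⟨1, by decide, Or.inr le_rfl⟩
  · exact Or.inr ⟨bx i 8 9 3 9 1 2, hT _ (by simp [tree]), show 2 < 3 by decide,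
      ovl _ _ _ _ _ _ _ _ _ _ _ _ _ (by decide)⟩

theorem cv_three {c : Pt × Pt} (h : c ∈ cv k) : c.1 3 = 0 ∧ c.2 3 = 3 := by
  rcases mem_cv.1 h with h | ⟨i, -, rfl⟩
  · exact cave_three h
  · exact ⟨rfl, rfl⟩

theorem cv_lt {c : Pt × Pt} (h : c ∈ cv k) (j : Fin 4) : c.1 j < c.2 j := by
  obtain ⟨i, -, h⟩ := cv_cases h
  rcases h with ⟨-, rfl⟩ | ⟨-, rfl⟩ | rfl | rfl | rfl | rfl | rfl | rfl | rfl <;>
    exact (ovl _ _ _ _ _ _ _ _ _ _ _ _ _ (by decide) j).1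

theorem org_free (l : Fin k × Bool) {c : Pt × Pt} (h : c ∈ cv k) :
    (org k l 1 + 3 ≤ c.1 1 ∨ c.2 1 ≤ org k l 1) ∨
      ∃ j, (j = 0 ∨ j = 2) ∧ (org k l j + 4 ≤ c.1 j ∨ c.2 j + 1 ≤ org k l j) := by
  obtain ⟨i, -, h⟩ := cv_cases h
  rcases h with ⟨-, rfl⟩ | ⟨-, rfl⟩ | rfl | rfl | rfl | rfl | rfl | rfl | rfl
  · exact Or.inr ⟨0, Or.inl rfl, Or.inl (show (2 : ℤ) + 4 ≤ 11 by decide)⟩
  · exact Or.inl (Or.inl (show (7 : ℤ) + 3 ≤ 10 by decide))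
  · exact Or.inl (Or.inr (show (7 : ℤ) ≤ 7 by decide))
  · exact Or.inl (Or.inl (show (7 : ℤ) + 3 ≤ 10 by decide))
  all_goals exact Or.inr ⟨0, Or.inl rfl, Or.inl (show (2 : ℤ) + 4 ≤ 8 by decide)⟩

theorem side_lt (m : ℕ) (s j : Fin 4) : (side m s).1 j < (side m s).2 j := by
  rcases side_cases m s with h | h | h | h <;> rw [h] <;>
    exact (ovl _ _ _ _ _ _ _ _ _ _ _ _ _ (by decide) j).1

theorem side_cv (m : ℕ) (s : Fin 4) {c : Pt × Pt} (h : c ∈ cv k) :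
    ∃ j, (side m s).2 j ≤ c.1 j ∨ c.2 j ≤ (side m s).1 j := by
  rcases mem_cv.1 h with h | ⟨i, -, rfl⟩
  · exact (side_cave m s h).imp fun _ h => h.2
  · refine ⟨2, ?_⟩
    rw [(side_two m s).1, (side_two m s).2, (bx_lo ..).2.2.1, (bx_hi ..).2.2.1]
    omega

/-- The tower with the levels `0, …, n`; the root is above the ring of the level `m`. -/
@[reducible] def geom (n m : ℕ) (h : m + 1 ≤ n) : K.Geom where
  m := n
  r := n - (m + 1)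
  cw j := ⟨n - j, by omega⟩
  cwInj i hi j hj e := by
    have := congrArg Fin.val e
    simp only at this
    omega
  hi := boxHi (n + 1)
  cv := cv (n + 1)
  o := org (n + 1)
  sb := side m
  hi3 := rfl
  cv3 _ := cv_three
  o3 _ := rfl
  o1 l := org_bound l 1
  side l j hj := by
    have h1 := l.1.2
    rcases hj with rfl | rfl
    · exact ⟨show (1 : ℤ) ≤ 2 by decide, show (2 : ℤ) + 4 ≤ 17 by decide⟩
    · rw [org_2, boxHi_2]
      split_ifs <;> omega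
  free l _ := org_free l
  gap l l' hl := ⟨2, Or.inr rfl, (org_gap l l').resolve_left hl⟩
  gap2 i i' e := by
    rw [org_2, org_2] at e
    simp only [if_true] at e
    exact Fin.ext (by omega)
  endL l := by
    obtain ⟨c, hc, h1, h2, h3⟩ := (kap_cave l).1
    exact ⟨c, mem_cv.2 (Or.inl hc), h1, by omega, h3⟩
  endR l := by
    obtain ⟨c, hc, h1, h2, h3⟩ := (kap_cave l).2
    exact ⟨c, mem_cv.2 (Or.inl hc), h1, by omega, h3⟩
  sb3 := side_three m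
  sbIn s j := ⟨(side_bound (k := n + 1) (by omega) s j).1, side_lt m s j,
    (side_bound (by omega) s j).2⟩
  sbCv s _ := side_cv m s
  sbQ s l := ⟨0, Or.inr (by have := side_org m s l; omega)⟩
  cvLt _ := cv_lt
  out := ⟨rk, fun _ => cv_out⟩

/-- the additional boxes do not change the set of cubes -/
theorem cv_inBox {N : ℕ} {q : Pt} :
    (∀ c ∈ cv k, ¬ InBox N c.1 c.2 q) ↔ ∀ c ∈ caves k, ¬ InBox N c.1 c.2 q := by
  refine ⟨fun h c hc => h c (mem_cv.2 (Or.inl hc)), fun h c hc => ?_⟩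
  rcases mem_cv.1 hc with hc | ⟨i, hi, rfl⟩
  · exact h c hc
  · have h1 := h (bx i 8 9 3 4 1 5) (tree_mem hi (by simp [tree]))
    have h2 := h (bx i 1 16 1 7 5 14) (tree_mem hi (by simp [tree]))
    rw [inBox_bx] at h1 h2 ⊢
    simp only [mul_add] at h1 h2 ⊢
    omega

/-- the additional boxes do not change the open chart -/
theorem cv_real {y : Fin 4 → ℝ} :
    (∀ c ∈ cv k, ∃ j : Fin 4, j ≠ 3 ∧ (y j < (c.1 j : ℝ) ∨ (c.2 j : ℝ) < y j)) ↔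
      ∀ c ∈ caves k, ∃ j : Fin 4, j ≠ 3 ∧ (y j < (c.1 j : ℝ) ∨ (c.2 j : ℝ) < y j) := by
  refine ⟨fun h c hc => h c (mem_cv.2 (Or.inl hc)), fun h c hc => ?_⟩
  rcases mem_cv.1 hc with hc | ⟨i, hi, rfl⟩
  · exact h c hc
  · have h1 := h (bx i 8 9 3 4 1 5) (tree_mem hi (by simp [tree]))
    have h2 := h (bx i 1 16 1 7 5 14) (tree_mem hi (by simp [tree]))
    by_contra h3
    simp [bx, Fin.exists_fin_succ] at h1 h2 h3
    obtain ⟨⟨a1, a2⟩, ⟨a3, a4⟩, a5, a6⟩ := h3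
    rcases h1 with (h1 | h1) | (h1 | h1) | h1 | h1 <;>
      rcases h2 with (h2 | h2) | (h2 | h2) | h2 | h2 <;> linarith

end Vale.Agent.P260Z.Lay
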