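import Vale.Agent.P260Z.Ob.Geom

/-!
# P260, obstruction: left normed brackets and products over the colours of the root word
-/

noncomputable section
set_option linter.unusedSectionVars false
variable [Vale.Agent.P215Z.K.Geom]

namespace Vale.Agent.P215Z.K

theorem map_lb {A B F : Type} [Ring A] [Ring B] [FunLike F A B] [RingHomClass F A B] (f : F)
    (z : ℕ → A) (j : ℕ) : f (lb z j) = lb (fun i => f (z i)) j := by
  induction j with
  | zero => rfl
  | succ j ih => rw [lb, lb, Ring.lie_def, Ring.lie_def, map_sub, map_mul, map_mul, ih]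

theorem map_lbK {A B F : Type} [Ring A] [Ring B] [FunLike F A B] [RingHomClass F A B] (f : F)
    (z : Kl → A) : f (lbK z) = lbK fun i => f (z i) := map_lb f _ _

theorem lb_congr {A : Type} [Ring A] {z z' : ℕ → A} {j : ℕ} (h : ∀ i ≤ j, z i = z' i) :
    lb z j = lb z' j := by
  induction j with
  | zero => exact h 0 le_rfl
  | succ j ih => rw [lb, lb, ih fun i hi => h i (by omega), h _ le_rfl]

theorem map_prK {R S : Type} [CommRing R] [CommRing S] (f : R →+* S) (Z : Kl → Ideal R) :
    (prK Z).map f = prK fun i => (Z i).map f :=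
  map_prod (Ideal.mapHom f) _ _

theorem prK_mono {R : Type} [CommRing R] {Z Z' : Kl → Ideal R} (h : ∀ i, Z i ≤ Z' i) :
    prK Z ≤ prK Z' :=
  Finset.prod_le_prod' fun _ _ => h _

theorem prK_le_sup {R : Type} [CommRing R] {Z Z' : Kl → Ideal R} {d : Ideal R}
    (h : ∀ i, Z i ≤ Z' i ⊔ d) : prK Z ≤ prK Z' ⊔ d := by
  rw [prK, prK]
  induction Geom.r + 1 with
  | zero => exact le_sup_left
  | succ j ih =>
    rw [Finset.prod_range_succ, Finset.prod_range_succ]
    refine (Ideal.mul_mono ih (h _)).trans ?_
    rw [Ideal.sup_mul, Ideal.mul_sup]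
    exact sup_le (sup_le le_sup_left (Ideal.mul_le_right.trans le_sup_right))
      (Ideal.mul_le_left.trans le_sup_right)

end Vale.Agent.P215Z.K
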