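import Vale.Agent.P260Z.Ob.Core.Final
import Vale.Agent.P260Z.Ob.Reg.Final
import Vale.Agent.P260Z.Ob.Top.Discr
import Vale.Agent.P260Z.Ob.Cert.Inst
import Vale.Agent.P260Z.Ob.Top.Collar

/-!
# P260, obstruction: the final statement for the periodic layout
-/

namespace Vale.Agent.P260Z.Ob

open Vale.Agent.P215Z

/-- In the tower there is no disc around the stem whose translates are disjoint. -/
theorem hobs (n m : ℕ) (hm : m + 1 ≤ n) : ¬ Nonempty (@K.LiftedS (Lay.geom n m hm)) := by
  rintro ⟨D⟩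
  let _ := Lay.geom n m hm
  have := Cyc.hasCert n m hm
  obtain ⟨D1⟩ := K.exists_collar D
  obtain ⟨D2⟩ := K.exists_discData D1
  obtain ⟨s⟩ := K.exists_setup D2
  exact s.L.not_geo s.geo

end Vale.Agent.P260Z.Ob
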