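import Vale.Agent.P215Z.Lat

/-!
# P260, obstruction: charts with an arbitrary number of plumbings

The chart is a box without a list of caves, times an interval in the direction `3`.  Each colour
has two cubes of side `3`, whose fibre directions are `1` and `3`.
-/

noncomputable section

namespace Vale.Agent.P215Z.K

/-- the data of a chart -/
class Geom where
  /-- the number of colours is `m + 1` -/
  m : ℕ
  /-- the root word uses the colours `cw 0, …, cw r` -/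
  r : ℕ
  cw : ℕ → Fin (m + 1)
  cwInj : ∀ i ≤ r, ∀ j ≤ r, cw i = cw j → i = j
  hi : Pt
  cv : List (Pt × Pt)
  o : Fin (m + 1) × Bool → Pt
  /-- four boxes around the root -/
  sb : Fin 4 → Pt × Pt
  hi3 : hi 3 = 3
  cv3 : ∀ c ∈ cv, c.1 3 = 0 ∧ c.2 3 = 3
  o3 : ∀ l, o l 3 = 0
  o1 : ∀ l, 0 ≤ o l 1 ∧ o l 1 + 3 ≤ hi 1
  side : ∀ l j, j = 0 ∨ j = 2 → 1 ≤ o l j ∧ o l j + 4 ≤ hi j
  free : ∀ l, ∀ c ∈ cv, (o l 1 + 3 ≤ c.1 1 ∨ c.2 1 ≤ o l 1) ∨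
    ∃ j, (j = 0 ∨ j = 2) ∧ (o l j + 4 ≤ c.1 j ∨ c.2 j + 1 ≤ o l j)
  gap : ∀ l l', l ≠ l' → ∃ j, (j = 0 ∨ j = 2) ∧ (o l j + 4 ≤ o l' j ∨ o l' j + 4 ≤ o l j)
  gap2 : ∀ i i', o (i, true) 2 = o (i', true) 2 → i = i'
  endL : ∀ l, ∃ c ∈ cv, c.2 1 = o l 1 ∧ c.1 1 + 1 ≤ c.2 1 ∧
    ∀ j, j ≠ 1 → c.1 j ≤ o l j ∧ o l j + 3 ≤ c.2 j
  endR : ∀ l, ∃ c ∈ cv, c.1 1 = o l 1 + 3 ∧ c.1 1 + 1 ≤ c.2 1 ∧
    ∀ j, j ≠ 1 → c.1 j ≤ o l j ∧ o l j + 3 ≤ c.2 j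
  sb3 : ∀ s, (sb s).1 3 = 0 ∧ (sb s).2 3 = 3
  sbIn : ∀ s j, 0 ≤ (sb s).1 j ∧ (sb s).1 j < (sb s).2 j ∧ (sb s).2 j ≤ hi j
  sbCv : ∀ s, ∀ c ∈ cv, ∃ j, (sb s).2 j ≤ c.1 j ∨ c.2 j ≤ (sb s).1 j
  sbQ : ∀ s l, ∃ j, (sb s).2 j ≤ o l j ∨ o l j + 3 ≤ (sb s).1 j
  cvLt : ∀ c ∈ cv, ∀ j, c.1 j < c.2 j
  /-- every cave is joined to the outside by a chain of overlapping caves -/
  out : ∃ rk : Pt × Pt → ℕ, ∀ c ∈ cv, (∃ j, j ≠ 3 ∧ (c.1 j ≤ 0 ∨ hi j ≤ c.2 j)) ∨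
    ∃ c' ∈ cv, rk c' < rk c ∧ ∀ j, c.1 j < c'.2 j ∧ c'.1 j < c.2 j

variable [Geom]

/-- the colours -/
abbrev Kl : Type := Fin (Geom.m + 1)
abbrev F3 : Type := FreeGroup Kl
/-- legs: colour and side, `true` is the strong side -/
abbrev Lg : Type := Kl × Bool

/-- the colour number `j` of the root word -/
def cl (j : ℕ) : Kl := Geom.cw j

theorem cl_inj {i j : ℕ} (hi : i ≤ Geom.r) (hj : j ≤ Geom.r) (h : cl i = cl j) : i = j :=
  Geom.cwInj i hi j hj h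

/-- left normed brackets -/
def lb {A : Type} [Ring A] (z : ℕ → A) : ℕ → A
  | 0 => z 0
  | j + 1 => ⁅lb z j, z (j + 1)⁆

/-- the left normed bracket of the colours of the root word -/
def lbK {A : Type} [Ring A] (z : Kl → A) : A := lb (fun j => z (cl j)) Geom.r

/-- the product over the colours of the root word -/
def prK {A : Type} [CommMonoid A] (z : Kl → A) : A := ∏ j ∈ Finset.range (Geom.r + 1), z (cl j)

def caves : List (Pt × Pt) := Geom.cv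
def boxHi : Pt := Geom.hi
/-- lower corners of the plumbing cubes; they have side `3` -/
def org (l : Lg) : Pt := Geom.o l
def sideB (s : Fin 4) : Pt × Pt := Geom.sb s

/-- the coordinate permutation of the plumbings -/
def ppi (_ : Kl) : Equiv.Perm (Fin 4) := Equiv.swap 0 1 * Equiv.swap 2 3

/-- the column direction -/
def kap (_ : Kl) : Fin 4 := 1

def prm (l : Lg) : Equiv.Perm (Fin 4) := if l.2 then 1 else ppi l.1

def Uc (N : ℕ) : Set Pt := {q | InBox N 0 boxHi q ∧ ∀ c ∈ caves, ¬ InBox N c.1 c.2 q}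
def Qc (N : ℕ) (l : Lg) : Set Pt := {q | InBox N (org l) (org l + 3) q}
def Rc (N : ℕ) : Set Pt := {q | q ∈ Uc N ∧ ∀ i, q ∉ Qc N (i, true)}
def Bc (N : ℕ) : Set Pt := {q | q ∈ Uc N ∧ ∀ i, q ∉ Qc N (i, false)}

def KR (N : ℕ) : Set Pt := Kof (Rc N)
def KB (N : ℕ) : Set Pt := Kof (Bc N)
def KS (N : ℕ) : Set Pt := KR N ∩ KB N ∩ Kof (Uc N)ᶜ

/-- the transition on cube indices -/
def thC (N : ℕ) (i : Kl) (q : Pt) : Pt :=
  fun j => q (ppi i j) + N * (org (i, false) j - org (i, true) (ppi i j))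

/-- from the standard cube of side `3 N` to the cube of a leg, in doubled coordinates -/
def dm (N : ℕ) (l : Lg) (p : Pt) : Pt := fun j => p (prm l j) + 2 * N * org l j

/-- A discretised disc whose translates are disjoint. -/
structure DiscData where
  N : ℕ
  hN : 0 < N
  M : ℕ
  hM : 0 < M
  F : F3 → Gp → Pt
  reg : Gp → F3
  equiv : ∀ g i v, F (g * FreeGroup.of i) v = thC N i (F g v)
  shape : ∀ g v, InSq M v →
    Shape (F g v) (F g (v + (1, 0))) (F g (v + (0, 1))) (F g (v + (1, 1)))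
  inR : ∀ v, InG M v → F (reg v) v ∈ Rc N
  sq : ∀ v, InSq M v → (∀ w, Corner v w → reg w = reg v) ∨ ∃ g i, ∀ w, Corner v w →
    F g w ∈ Uc N ∧ ((reg w = g ∧ F g w ∉ Qc N (i, true)) ∨
      (reg w = g * FreeGroup.of i ∧ F g w ∈ Qc N (i, true)))
  sep : ∀ v v', InG M v → InG M v' → F (reg v) v = F (reg v') v' → reg v = reg v'
  bd : ∀ v, OnBd M v → reg v = 1 ∧ F 1 v 3 = 0 ∧
    (v.2 = 0 → InBox N (sideB 0).1 (sideB 0).2 (F 1 v)) ∧
    (v.1 = M → InBox N (sideB 1).1 (sideB 1).2 (F 1 v)) ∧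
    (v.2 = M → InBox N (sideB 2).1 (sideB 2).2 (F 1 v)) ∧
    (v.1 = 0 → InBox N (sideB 3).1 (sideB 3).2 (F 1 v))

/-! ### the axioms, in the notation of the development -/

namespace Gx

theorem kap_eq (i : Kl) : kap i = 1 := rfl
theorem ppi_eq (i : Kl) : ppi i = Equiv.swap 0 1 * Equiv.swap 2 3 := rfl
theorem ppi_val (i : Kl) (j : Fin 4) : ppi i j = ![1, 0, 3, 2] j := by
  rw [ppi_eq]
  revert j
  decide
theorem ppi_symm (i : Kl) (j : Fin 4) : (ppi i).symm j = ppi i j := by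
  rw [ppi_eq]
  revert j
  decide
theorem base_iff {i : Kl} {j : Fin 4} : (j ≠ kap i ∧ j ≠ 3) ↔ (j = 0 ∨ j = 2) := by
  rw [kap_eq]
  revert j
  decide
theorem kap_ne3 (i : Kl) : kap i ≠ 3 := by
  rw [kap_eq]
  decide
theorem kap_ne2 (i : Kl) : kap i ≠ 2 := by
  rw [kap_eq]
  decide
theorem kap_ne0 (i : Kl) : kap i ≠ 0 := by
  rw [kap_eq]
  decide
theorem hi_three : boxHi 3 = 3 := Geom.hi3
theorem cave_three : ∀ c ∈ caves, c.1 3 = 0 ∧ c.2 3 = 3 := Geom.cv3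
theorem org_three (l : Lg) : org l 3 = 0 := Geom.o3 l
theorem org_three' (l : Lg) : org l 3 = 0 ∧ (org l + 3) 3 = 3 :=
  ⟨org_three l, by rw [Pi.add_apply, org_three]; rfl⟩
theorem org_side (l : Lg) {j : Fin 4} (h : j = 0 ∨ j = 2) :
    1 ≤ org l j ∧ org l j + 4 ≤ boxHi j := Geom.side l j h
theorem org_bound (l : Lg) (j : Fin 4) : 0 ≤ org l j ∧ org l j + 3 ≤ boxHi j := by
  have h0 := org_side l (j := 0) (Or.inl rfl)
  have h1 : 0 ≤ org l 1 ∧ org l 1 + 3 ≤ boxHi 1 := Geom.o1 l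
  have h2 := org_side l (j := 2) (Or.inr rfl)
  have h3 := org_three l
  have h4 := hi_three
  obtain rfl | rfl | rfl | rfl : j = 0 ∨ j = 1 ∨ j = 2 ∨ j = 3 := by omega
  all_goals omega
theorem hi_pos (j : Fin 4) : 0 < boxHi j := by
  have := org_bound (0, true) j
  omega
theorem org_free (l : Lg) : ∀ c ∈ caves, (org l 1 + 3 ≤ c.1 1 ∨ c.2 1 ≤ org l 1) ∨
    ∃ j, (j = 0 ∨ j = 2) ∧ (org l j + 4 ≤ c.1 j ∨ c.2 j + 1 ≤ org l j) := Geom.free l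
theorem org_cave (l : Lg) : ∀ c ∈ caves, ∃ j, org l j + 3 ≤ c.1 j ∨ c.2 j ≤ org l j := by
  intro c hc
  rcases org_free l c hc with h | ⟨j, -, h⟩
  · exact ⟨1, h⟩
  · exact ⟨j, by omega⟩
theorem org_gap02 (l l' : Lg) (h : l ≠ l') :
    ∃ j, (j = 0 ∨ j = 2) ∧ (org l j + 4 ≤ org l' j ∨ org l' j + 4 ≤ org l j) := Geom.gap l l' h
theorem org_gap (l l' : Lg) (h : l ≠ l') :
    ∃ j : Fin 4, j ≠ 3 ∧ (org l j + 4 ≤ org l' j ∨ org l' j + 4 ≤ org l j) := by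
  obtain ⟨j, h1, h2⟩ := org_gap02 l l' h
  exact ⟨j, by rcases h1 with rfl | rfl <;> decide, h2⟩
theorem org_gap3 (l l' : Lg) :
    l = l' ∨ ∃ j, (org l + 3) j ≤ org l' j ∨ (org l' + 3) j ≤ org l j := by
  refine or_iff_not_imp_left.2 fun h => ?_
  obtain ⟨j, -, h2⟩ := org_gap l l' h
  refine ⟨j, ?_⟩
  change org l j + 3 ≤ org l' j ∨ org l' j + 3 ≤ org l j
  omega
theorem org_inj {i i' : Kl} (h : org (i, true) 2 = org (i', true) 2) : i = i' := Geom.gap2 i i' h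
theorem end_lo (l : Lg) : ∃ c ∈ caves, c.2 (kap l.1) = org l (kap l.1) ∧
    c.1 (kap l.1) + 1 ≤ c.2 (kap l.1) ∧
    ∀ j, j ≠ kap l.1 → c.1 j ≤ org l j ∧ org l j + 3 ≤ c.2 j := Geom.endL l
theorem end_hi (l : Lg) : ∃ c ∈ caves, c.1 (kap l.1) = org l (kap l.1) + 3 ∧
    c.1 (kap l.1) + 1 ≤ c.2 (kap l.1) ∧
    ∀ j, j ≠ kap l.1 → c.1 j ≤ org l j ∧ org l j + 3 ≤ c.2 j := Geom.endR l
theorem side_three (s : Fin 4) : (sideB s).1 3 = 0 ∧ (sideB s).2 3 = 3 := Geom.sb3 s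
theorem side_in (s j : Fin 4) :
    0 ≤ (sideB s).1 j ∧ (sideB s).1 j < (sideB s).2 j ∧ (sideB s).2 j ≤ boxHi j := Geom.sbIn s j
theorem side_cave (s : Fin 4) : ∀ c ∈ caves, ∃ j, (sideB s).2 j ≤ c.1 j ∨ c.2 j ≤ (sideB s).1 j :=
  Geom.sbCv s
theorem side_Q (s : Fin 4) (l : Lg) :
    ∃ j, (sideB s).2 j ≤ org l j ∨ org l j + 3 ≤ (sideB s).1 j := Geom.sbQ s l

theorem cave_lt : ∀ c ∈ caves, ∀ j, c.1 j < c.2 j := Geom.cvLt
theorem cave_out : ∃ rk : Pt × Pt → ℕ, ∀ c ∈ caves,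
    (∃ j, j ≠ 3 ∧ (c.1 j ≤ 0 ∨ boxHi j ≤ c.2 j)) ∨
      ∃ c' ∈ caves, rk c' < rk c ∧ ∀ j, c.1 j < c'.2 j ∧ c'.1 j < c.2 j := Geom.out

theorem mem_Qc {N : ℕ} {l : Lg} {q : Pt} :
    q ∈ Qc N l ↔ ∀ j, N * org l j ≤ q j ∧ q j < N * org l j + 3 * N := by
  refine forall_congr' fun k => ?_
  rw [Pi.add_apply, mul_add, Pi.ofNat_apply, mul_comm (N : ℤ) 3]

/-- a cube of the chart which lies over the base of a plumbing cube and at most one step away from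
it is contained in it -/
theorem fib_in {N : ℕ} {l : Lg} {q : Pt} (hq : q ∈ Uc N)
    (h1 : ∀ j, j ≠ kap l.1 → j ≠ 3 → N * org l j ≤ q j ∧ q j < N * org l j + 3 * N)
    (h2 : N * org l (kap l.1) - 1 ≤ q (kap l.1))
    (h3 : q (kap l.1) ≤ N * org l (kap l.1) + 3 * N) : q ∈ Qc N l := by
  have h0 : (0 : ℤ) ≤ N := Int.natCast_nonneg N
  have b3 := hq.1 3
  rw [hi_three, Pi.zero_apply] at b3
  have hN : (0 : ℤ) < N := by omega
  have a3 : N * org l 3 ≤ q 3 ∧ q 3 < N * org l 3 + 3 * N := by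
    rw [org_three]
    omega
  have a1 : ∀ j, j ≠ kap l.1 → N * org l j ≤ q j ∧ q j < N * org l j + 3 * N := fun j hj => by
    by_cases e : j = 3
    · rw [e]
      exact a3
    · exact h1 j hj e
  have key : ∀ c ∈ caves, (∀ j, j ≠ kap l.1 → c.1 j ≤ org l j ∧ org l j + 3 ≤ c.2 j) →
      ¬ (N * c.1 (kap l.1) ≤ q (kap l.1) ∧ q (kap l.1) < N * c.2 (kap l.1)) := by
    intro c hc h4 h5
    refine hq.2 c hc fun j => ?_
    by_cases e : j = kap l.1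
    · rw [e]
      exact h5
    · have b1 := mul_le_mul_of_nonneg_left (h4 j e).1 h0
      have b2 := mul_le_mul_of_nonneg_left (h4 j e).2 h0
      have b4 := a1 j e
      rw [mul_add] at b2
      omega
  obtain ⟨c, hc, c1, c2, c3⟩ := end_lo l
  obtain ⟨d, hd, d1, d2, d3⟩ := end_hi l
  have k1 := key c hc c3
  have k2 := key d hd d3
  have c4 := mul_le_mul_of_nonneg_left c2 h0
  have d4 := mul_le_mul_of_nonneg_left d2 h0
  rw [c1] at k1 c4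
  rw [d1] at k2 d4
  rw [mul_add] at c4 k2
  rw [mul_add, mul_add] at d4
  refine mem_Qc.2 fun j => ?_
  by_cases e : j = kap l.1
  · rw [e]
    omega
  · exact a1 j e

end Gx

end Vale.Agent.P215Z.K
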